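import Mathlib

/-!
Row 49 (S0068), helper79.  Abstract density-increment iteration with triangular costs, and the
final numerical glue.
-/

set_option autoImplicit false

open Finset

namespace Crest.Agent.N49.Bk

/-- exponents of the triangular recursion -/
def ex (g K : ℕ) : ℕ → ℕ
  | 0 => 1
  | j + 1 => g + K * ex g K j

lemma ex_pos (g K : ℕ) (hK : 1 ≤ K) : ∀ j, 1 ≤ ex g K j
  | 0 => le_rfl
  | j + 1 => by
    have := ex_pos g K hK j
    have h2 : 1 * 1 ≤ K * ex g K j := Nat.mul_le_mul hK this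
    simp only [ex]; omega

lemma sum_le_ex {g K T : ℕ} (hK : 1 ≤ K) {m : ℝ} (hm : 2 ≤ m) (hg : 3 + 2 * (T : ℝ) ≤ m ^ g)
    (j : ℕ) : m + ∑ i ∈ range j, 2 * (m ^ K + T * (m ^ ex g K i) ^ K) ≤ m ^ ex g K j := by
  induction j with
  | zero => simp [ex]
  | succ j ih =>
    have h1 : (1 : ℝ) ≤ m := by linarith
    have hu : m ≤ m ^ ex g K j := le_self_pow₀ h1 (by have := ex_pos g K hK j; omega)
    have h2 : m ^ ex g K j ≤ (m ^ ex g K j) ^ K := le_self_pow₀ (h1.trans hu) (by omega)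
    have h3 : m ^ K ≤ (m ^ ex g K j) ^ K := pow_le_pow_left₀ (by linarith) hu K
    have h4 : 0 ≤ (m ^ ex g K j) ^ K := by positivity
    rw [sum_range_succ, ex, pow_add, mul_comm K, pow_mul]
    nlinarith [mul_le_mul_of_nonneg_right hg h4]

/-- **iteration with triangular costs** -/
theorem iter (r K : ℕ) (hK : 1 ≤ K) (c : ℝ) (hc : 0 < c) : ∃ K' : ℕ,
    ∀ (σ : Type*) (dens : σ → ℝ) (cost : σ → Fin r → ℝ) (m : ℕ) (B : ℝ) (s0 : σ), 2 ≤ m →
      (∀ s, dens s ≤ 1) → (∀ s j, 0 ≤ cost s j) → (1 / 2 : ℝ) ^ m ≤ dens s0 →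
      (∀ j, cost s0 j ≤ (m : ℝ) ^ K) →
      (∀ s, (1 / 2 : ℝ) ^ m ≤ dens s → ((m : ℝ) + ∑ j, cost s j) ^ K ≤ B →
        ∃ s', (1 + c) * dens s ≤ dens s' ∧ ∀ j, cost s' j ≤ cost s j +
          ((m : ℝ) + ∑ i ∈ univ.filter (· < j), (cost s' i + cost s i)) ^ K) →
      B ≤ (m : ℝ) ^ K' := by
  obtain ⟨T0, hT0⟩ := exists_nat_gt (1 / c)
  have hT1 : 2 < (1 + c) ^ T0 := by
    have h1 := one_add_mul_le_pow (a := c) (by linarith) T0
    rw [div_lt_iff₀ hc] at hT0
    linarith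
  refine ⟨ex (T0 + 3) K r * K, fun σ dens cost m B s0 hm hd hc0 h0 hs0 hstep => ?_⟩
  set g := T0 + 3 with hgdef
  set T := T0 * m with hT
  have hm' : (2 : ℝ) ≤ m := by exact_mod_cast hm
  have hg : 3 + 2 * (T : ℝ) ≤ (m : ℝ) ^ g := by
    have h1 : 3 + 2 * T0 ≤ 2 ^ (T0 + 2) := by
      have := Nat.lt_two_pow_self (n := T0)
      rw [pow_add]; omega
    have h2 : 2 ^ (T0 + 2) ≤ m ^ (T0 + 2) := Nat.pow_le_pow_left hm _
    have h3 : 3 + 2 * T ≤ m ^ g := by
      rw [hgdef, pow_succ, hT]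
      calc 3 + 2 * (T0 * m) ≤ (3 + 2 * T0) * m := by nlinarith
        _ ≤ _ := Nat.mul_le_mul_right _ (h1.trans h2)
    exact_mod_cast h3
  by_contra hB
  push Not at hB
  have hsum : ∀ (s s' : σ) (j : ℕ),
      (∀ i : Fin r, (i : ℕ) < j → cost s i ≤ m ^ K + T * ((m : ℝ) ^ ex g K i) ^ K) →
      (∀ i : Fin r, (i : ℕ) < j → cost s' i ≤ m ^ K + T * ((m : ℝ) ^ ex g K i) ^ K) →
      (m : ℝ) + ∑ i ∈ univ.filter (fun i : Fin r => (i : ℕ) < j), (cost s' i + cost s i) ≤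
        (m : ℝ) ^ ex g K j := by
    intro s s' j h1 h2
    refine le_trans (add_le_add_right ?_ _) (sum_le_ex hK hm' hg j)
    calc _ ≤ ∑ i ∈ univ.filter (fun i : Fin r => (i : ℕ) < j),
          2 * ((m : ℝ) ^ K + T * ((m : ℝ) ^ ex g K i) ^ K) :=
          sum_le_sum fun i hi => by
            have hi' := (mem_filter.1 hi).2
            linarith [h1 i hi', h2 i hi']
      _ = ∑ i ∈ (univ.filter (fun i : Fin r => (i : ℕ) < j)).map Fin.valEmbedding,
          2 * ((m : ℝ) ^ K + T * ((m : ℝ) ^ ex g K i) ^ K) := by rw [sum_map]; rfl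
      _ ≤ _ := sum_le_sum_of_subset_of_nonneg (fun i hi => by
            obtain ⟨i', hi', rfl⟩ := mem_map.1 hi
            exact mem_range.2 (mem_filter.1 hi').2) fun _ _ _ => by positivity
  have key : ∀ t, t ≤ T → ∃ s, (1 + c) ^ t * (1 / 2 : ℝ) ^ m ≤ dens s ∧
      ∀ j : Fin r, cost s j ≤ m ^ K + t * ((m : ℝ) ^ ex g K j) ^ K := by
    intro t
    induction t with
    | zero => exact fun _ => ⟨s0, by simpa using h0, fun j => by simpa using hs0 j⟩
    | succ t ih =>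
      intro ht
      obtain ⟨s, hs1, hs2⟩ := ih (by omega)
      have htT : (t : ℝ) + 1 ≤ T := by exact_mod_cast ht
      have hsT : ∀ i : Fin r, cost s i ≤ m ^ K + T * ((m : ℝ) ^ ex g K i) ^ K := fun i =>
        (hs2 i).trans (by gcongr; linarith)
      have hd0 : (1 / 2 : ℝ) ^ m ≤ dens s :=
        (le_mul_of_one_le_left (by positivity) (one_le_pow₀ (by linarith))).trans hs1
      have hcost : ((m : ℝ) + ∑ j, cost s j) ^ K ≤ B := by
        refine le_trans ?_ hB.le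
        rw [pow_mul]
        refine pow_le_pow_left₀ (add_nonneg (by positivity) (sum_nonneg fun j _ => hc0 s j)) ?_ K
        refine le_trans (add_le_add_right ?_ _) (hsum s s r (fun i _ => hsT i) fun i _ => hsT i)
        rw [filter_true_of_mem fun i _ => i.2]
        exact sum_le_sum fun i _ => by linarith [hc0 s i]
      obtain ⟨s', hs'1, hs'2⟩ := hstep s hd0 hcost
      refine ⟨s', ?_, ?_⟩
      · rw [pow_succ', mul_assoc]
        exact (mul_le_mul_of_nonneg_left hs1 (by linarith)).trans hs'1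
      · have : ∀ n : ℕ, ∀ j : Fin r, (j : ℕ) = n →
            cost s' j ≤ m ^ K + (t + 1 : ℕ) * ((m : ℝ) ^ ex g K j) ^ K := by
          intro n
          induction n using Nat.strong_induction_on with
          | _ n ihn =>
            intro j hj
            have h1 := hsum s s' j (fun i _ => hsT i) fun i hi =>
              (ihn i (hj ▸ hi) i rfl).trans (by push_cast; gcongr)
            have h2 : ((m : ℝ) + ∑ i ∈ univ.filter (· < j), (cost s' i + cost s i)) ^ K ≤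
                ((m : ℝ) ^ ex g K j) ^ K :=
              pow_le_pow_left₀ (add_nonneg (by positivity)
                (sum_nonneg fun i _ => add_nonneg (hc0 _ _) (hc0 _ _))) h1 K
            have h3 := hs'2 j
            have h4 := hs2 j
            push_cast
            linarith
        exact fun j => this j j rfl
  obtain ⟨s, hs, -⟩ := key T le_rfl
  have h1 : (2 : ℝ) ^ m < (1 + c) ^ T := by
    rw [hT, pow_mul]
    exact pow_lt_pow_left₀ hT1 (by norm_num) (by omega)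
  have h2 : (2 : ℝ) ^ m * (1 / 2) ^ m = 1 := by rw [← mul_pow]; norm_num
  have h3 := mul_lt_mul_of_pos_right h1 (show (0 : ℝ) < (1 / 2) ^ m by positivity)
  linarith [hd s]

/-- **final glue**: a polynomial bound for `log N` in terms of `m` gives the statement -/
theorem final (k K : ℕ)
    (h : ∀ (N : ℕ) (A : Finset ℕ) (m : ℕ), 2 ≤ N → 2 ≤ m → A ⊆ Finset.Icc 1 N →
      (∀ a d : ℕ, 0 < d → ∃ i, i < k ∧ a + i * d ∉ A) → N ≤ 2 ^ m * #A →
      Real.log N ≤ (m : ℝ) ^ K) :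
    ∃ C c ε : ℝ, 0 < C ∧ 0 < c ∧ 0 < ε ∧ ∀ N : ℕ, 2 ≤ N → ∀ A : Finset ℕ,
      A ⊆ Finset.Icc 1 N → (∀ a d : ℕ, 0 < d → ∃ i, i < k ∧ a + i * d ∉ A) →
        (A.card : ℝ) ≤ C * N * Real.exp (-(c * Real.log N ^ ε)) := by
  classical
  refine ⟨4, Real.log 2, ((K + 1 : ℕ) : ℝ)⁻¹, by norm_num, Real.log_pos (by norm_num),
    by positivity, fun N hN A hA hAP => ?_⟩
  rcases A.eq_empty_or_nonempty with rfl | hne
  · simp only [card_empty, Nat.cast_zero]; positivity
  have hex : ∃ m, 2 ≤ m ∧ N ≤ 2 ^ m * #A := by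
    refine ⟨N, hN, ?_⟩
    have h1 := Nat.lt_two_pow_self (n := N)
    have h2 : 1 ≤ #A := card_pos.2 hne
    nlinarith
  set m := Nat.find hex with hm
  obtain ⟨hm2, hmN⟩ : 2 ≤ m ∧ N ≤ 2 ^ m * #A := Nat.find_spec hex
  have hcard : 2 ^ m * #A ≤ 4 * N := by
    rcases hm2.eq_or_lt with h2 | h2
    · have : #A ≤ N := by simpa using card_le_card hA
      rw [← h2]; omega
    · have h3 := Nat.find_min hex (m := m - 1) (by omega)
      rw [not_and, not_le] at h3
      have h4 := h3 (by omega)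
      have h5 : 2 ^ m = 2 * 2 ^ (m - 1) := by
        rw [← pow_succ']; congr 1; omega
      rw [h5, mul_assoc]; omega
  have hm1 : (1 : ℝ) ≤ m := by exact_mod_cast (by omega : 1 ≤ m)
  have h1 : Real.log N ≤ (m : ℝ) ^ (K + 1) :=
    (h N A m hN hm2 hA hAP hmN).trans (pow_le_pow_right₀ hm1 (by omega))
  have h2 : Real.log N ^ (((K + 1 : ℕ) : ℝ)⁻¹) ≤ m := by
    calc _ ≤ ((m : ℝ) ^ (K + 1)) ^ (((K + 1 : ℕ) : ℝ)⁻¹) :=
          Real.rpow_le_rpow (Real.log_natCast_nonneg N) h1 (by positivity)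
      _ = m := Real.pow_rpow_inv_natCast (by positivity) (by omega)
  have h3 : ((2 : ℝ) ^ m)⁻¹ ≤ Real.exp (-(Real.log 2 * Real.log N ^ (((K + 1 : ℕ) : ℝ)⁻¹))) := by
    have e : ((2 : ℝ) ^ m)⁻¹ = Real.exp (-(Real.log 2 * m)) := by
      rw [Real.exp_neg, mul_comm, Real.exp_nat_mul, Real.exp_log (by norm_num)]
    rw [e]
    exact Real.exp_le_exp.2 (neg_le_neg (mul_le_mul_of_nonneg_left h2
      (Real.log_pos (by norm_num)).le))
  have h4 : (2 : ℝ) ^ m * #A ≤ 4 * N := by exact_mod_cast hcard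
  calc (#A : ℝ) ≤ 4 * N * ((2 : ℝ) ^ m)⁻¹ := by
        rw [← div_eq_mul_inv, le_div_iff₀ (by positivity)]; linarith
    _ ≤ _ := by gcongr

end Crest.Agent.N49.Bk
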